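import Mathlib
import Vale.Agent.Lib.P042.Numeric

/-!
# P042: the mixed-modulus recursion for square-difference-free sets and the exponents it gives

Write `r(N)` for the largest size of a subset of `{1, …, N}` no two elements of which differ by a
positive square.  The statement has four parts:
1. `r(42025 N) ≥ 2050 r(N) + 41 r(25 N)`, in the form: from any two admissible sets one gets an
   admissible subset of `{1, …, 42025 N}` with `2050 |A₁| + 41 |A₂|` elements;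
2. every exponent `g` in `[0, 1]` with `42025 ^ g < 2050 + 41 * 25 ^ g` satisfies `r(N) ≥ c N ^ g`;
3. `g = 0.73439` satisfies this inequality;
4. hence `r(N) ≥ c N ^ 0.73439`.
-/

namespace Vale.Agent.Results.P042.RecursionAndExponent

open Vale.Agent.Lib.P042

/-- Translate a subset of `[1,N]` without square differences (integer formulation) to `[0,N)`. -/
theorem unshift {N : ℕ} {A : Finset ℕ} (hs : A ⊆ Finset.Icc 1 N)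
    (hA : ∀ a ∈ A, ∀ b ∈ A, ∀ n : ℕ, 1 ≤ n → (a : ℤ) - (b : ℤ) ≠ (n : ℤ) ^ 2) :
    ∃ A' : Finset ℕ, A' ⊆ Finset.range N ∧ SDF A' ∧ A'.card = A.card := by
  refine ⟨A.image (· - 1), ?_, ?_, ?_⟩
  · intro x hx
    obtain ⟨a, ha, rfl⟩ := Finset.mem_image.1 hx
    have := Finset.mem_Icc.1 (hs ha)
    exact Finset.mem_range.2 (by omega)
  · intro x hx y hy n hn h
    obtain ⟨a, ha, rfl⟩ := Finset.mem_image.1 hx
    obtain ⟨b, hb, rfl⟩ := Finset.mem_image.1 hy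
    have h1 := (Finset.mem_Icc.1 (hs ha)).1
    have h2 := (Finset.mem_Icc.1 (hs hb)).1
    apply hA a ha b hb n hn
    have h3 : a = b + n ^ 2 := by omega
    rw [h3]
    push_cast
    ring
  · apply Finset.card_image_of_injOn
    intro a ha b hb hab
    have h1 := (Finset.mem_Icc.1 (hs ha)).1
    have h2 := (Finset.mem_Icc.1 (hs hb)).1
    simp only at hab
    omega

theorem result :
    (∀ (N : ℕ) (A₁ A₂ : Finset ℕ),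
      A₁ ⊆ Finset.Icc 1 N →
      (∀ a ∈ A₁, ∀ b ∈ A₁, ∀ n : ℕ, 1 ≤ n → (a : ℤ) - (b : ℤ) ≠ (n : ℤ) ^ 2) →
      A₂ ⊆ Finset.Icc 1 (25 * N) →
      (∀ a ∈ A₂, ∀ b ∈ A₂, ∀ n : ℕ, 1 ≤ n → (a : ℤ) - (b : ℤ) ≠ (n : ℤ) ^ 2) →
      ∃ B : Finset ℕ, B ⊆ Finset.Icc 1 (42025 * N) ∧
        (∀ a ∈ B, ∀ b ∈ B, ∀ n : ℕ, 1 ≤ n → (a : ℤ) - (b : ℤ) ≠ (n : ℤ) ^ 2) ∧
        B.card = 2050 * A₁.card + 41 * A₂.card) ∧
    (∀ g : ℝ, 0 ≤ g → g ≤ 1 → (42025 : ℝ) ^ g < 2050 + 41 * (25 : ℝ) ^ g →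
      ∃ c : ℝ, 0 < c ∧ ∀ N : ℕ, 1 ≤ N →
        ∃ A : Finset ℕ, A ⊆ Finset.Icc 1 N ∧
          (∀ a ∈ A, ∀ b ∈ A, ∀ n : ℕ, 1 ≤ n → (a : ℤ) - (b : ℤ) ≠ (n : ℤ) ^ 2) ∧
          c * (N : ℝ) ^ g ≤ (A.card : ℝ)) ∧
    ((42025 : ℝ) ^ ((73439 : ℝ) / 100000) < 2050 + 41 * (25 : ℝ) ^ ((73439 : ℝ) / 100000)) ∧
    (∃ c : ℝ, 0 < c ∧ ∀ N : ℕ, 1 ≤ N →
      ∃ A : Finset ℕ, A ⊆ Finset.Icc 1 N ∧
        (∀ a ∈ A, ∀ b ∈ A, ∀ n : ℕ, 1 ≤ n → (a : ℤ) - (b : ℤ) ≠ (n : ℤ) ^ 2) ∧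
        c * (N : ℝ) ^ ((73439 : ℝ) / 100000) ≤ (A.card : ℝ)) := by
  refine ⟨?_, ?_, key_ineq, main_bound⟩
  · intro N A₁ A₂ hs₁ h₁ hs₂ h₂
    obtain ⟨A₁', hs₁', h₁', hc₁⟩ := unshift hs₁ h₁
    obtain ⟨A₂', hs₂', h₂', hc₂⟩ := unshift hs₂ h₂
    obtain ⟨B, hsB, hB, hcB⟩ := step hs₁' h₁' hs₂' h₂'
    obtain ⟨B', hsB', hB', hcB'⟩ := shift hsB hB
    exact ⟨B', hsB', hB', by rw [hcB', hcB, hc₁, hc₂]⟩
  · intro g h0 h1 hg
    obtain ⟨c, hc, h⟩ := power_bound g h0 h1 hg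
    refine ⟨c, hc, fun N hN => ?_⟩
    obtain ⟨A, hs, hA, hcard⟩ := h N hN
    obtain ⟨A', hs', hA', hcard'⟩ := shift hs hA
    exact ⟨A', hs', hA', by rw [hcard']; exact hcard⟩

end Vale.Agent.Results.P042.RecursionAndExponent
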