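import Mathlib
import Vale.Agent.Lib.P042.Numeric

/-!
# P042: an improved lower bound for square-difference-free sets

There is `c > 0` such that for every `N ≥ 1` some `A ⊆ {1, …, N}` without two elements differing
by a positive square has at least `c * N ^ 0.73439` elements.  The previous record exponent was
`(1 + log 12 / log 205) / 2 = 0.733411…`.

Idea: if `A₁ ⊆ [0, N)` and `A₂ ⊆ [0, 25 N)` have no square differences, then neither has
`{r + 205 s + 205² a : r ∈ R, s < 205, a ∈ A₁} ∪ {29 + 41 s + 41² a : s < 41, a ∈ A₂}`,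
where `R` consists of ten residues mod 205.  Hence `r(42025 N) ≥ 2050 r(N) + 41 r(25 N)`, and any
exponent `γ` with `42025 ^ γ < 2050 + 41 * 25 ^ γ` is admissible.
-/

namespace Vale.Agent.Results.P042.SquareLowerBound

theorem result : ∃ c : ℝ, 0 < c ∧ ∀ N : ℕ, 1 ≤ N →
    ∃ A : Finset ℕ, A ⊆ Finset.Icc 1 N ∧
      (∀ a ∈ A, ∀ b ∈ A, ∀ n : ℕ, 1 ≤ n → (a : ℤ) - (b : ℤ) ≠ (n : ℤ) ^ 2) ∧
      c * (N : ℝ) ^ ((73439 : ℝ) / 100000) ≤ (A.card : ℝ) :=
  Vale.Agent.Lib.P042.main_bound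

end Vale.Agent.Results.P042.SquareLowerBound
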